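import Mathlib

namespace Vale.Agent.Lib.P110

open Finset Polynomial

theorem geom_root (M : ℕ) (ζ : ℂ) (hζ : IsPrimitiveRoot ζ M) (m m' : ℕ) (hm : m < M) (hm' : m' < M) :
    ∑ j ∈ range M, (ζ ^ j) ^ m * ((ζ⁻¹) ^ j) ^ m' = if m = m' then (M : ℂ) else 0 := by
  have hM : M ≠ 0 := by omega
  have hζ0 : ζ ≠ 0 := hζ.ne_zero hM
  have key : ∀ j : ℕ, (ζ ^ j) ^ m * ((ζ⁻¹) ^ j) ^ m' = (ζ ^ m * (ζ⁻¹) ^ m') ^ j := by
    intro j
    rw [mul_pow, ← pow_mul, ← pow_mul, ← pow_mul, ← pow_mul, mul_comm j m, mul_comm j m']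
  simp_rw [key]
  split_ifs with h
  · subst h
    have : ζ ^ m * (ζ⁻¹) ^ m = 1 := by
      rw [← mul_pow, mul_inv_cancel₀ hζ0, one_pow]
    rw [this]; simp
  · have hne : ζ ^ m * (ζ⁻¹) ^ m' ≠ 1 := by
      intro h1
      apply h
      have : ζ ^ m = ζ ^ m' := by
        have h2 : ζ ^ m * (ζ⁻¹) ^ m' * ζ ^ m' = ζ ^ m' := by rw [h1, one_mul]
        rw [mul_assoc, ← mul_pow, inv_mul_cancel₀ hζ0, one_pow, mul_one] at h2
        exact h2
      exact hζ.pow_inj hm hm' this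
    rw [geom_sum_eq hne]
    have : (ζ ^ m * (ζ⁻¹) ^ m') ^ M = 1 := by
      rw [mul_pow, ← pow_mul, ← pow_mul, mul_comm m M, mul_comm m' M, pow_mul, pow_mul, inv_pow,
        hζ.pow_eq_one]
      simp
    rw [this]; simp

theorem parseval_roots (M : ℕ) (ζ : ℂ) (hζ : IsPrimitiveRoot ζ M) (a : ℕ → ℂ) :
    ∑ j ∈ range M, ‖∑ m ∈ range M, a m * (ζ ^ j) ^ m‖ ^ 2 = M * ∑ m ∈ range M, ‖a m‖ ^ 2 := by
  rcases Nat.eq_zero_or_pos M with h0 | hpos
  · subst h0; simp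
  have hM : M ≠ 0 := by omega
  have hnorm : ‖ζ‖ = 1 := hζ.norm'_eq_one hM
  have hconj : (starRingEnd ℂ) ζ = ζ⁻¹ := (Complex.inv_eq_conj hnorm).symm
  have sq : ∀ x : ℂ, ((‖x‖ ^ 2 : ℝ) : ℂ) = x * (starRingEnd ℂ) x := by
    intro x; rw [Complex.mul_conj, Complex.normSq_eq_norm_sq]
  have key : ((∑ j ∈ range M, ‖∑ m ∈ range M, a m * (ζ ^ j) ^ m‖ ^ 2 : ℝ) : ℂ)
      = ((M * ∑ m ∈ range M, ‖a m‖ ^ 2 : ℝ) : ℂ) := by
    rw [Complex.ofReal_sum, Complex.ofReal_mul, Complex.ofReal_sum]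
    simp_rw [sq]
    simp_rw [map_sum, map_mul, map_pow, hconj]
    simp_rw [Finset.sum_mul_sum]
    rw [Finset.sum_comm]
    rw [Complex.ofReal_natCast, Finset.mul_sum]
    apply Finset.sum_congr rfl
    intro m hm
    rw [Finset.sum_comm]
    have : ∀ m' ∈ range M, ∑ j ∈ range M, a m * (ζ ^ j) ^ m * ((starRingEnd ℂ) (a m') * (ζ⁻¹ ^ j) ^ m')
        = if m = m' then a m * (starRingEnd ℂ) (a m') * (M : ℂ) else 0 := by
      intro m' hm'
      have h1 : ∀ j ∈ range M, a m * (ζ ^ j) ^ m * ((starRingEnd ℂ) (a m') * (ζ⁻¹ ^ j) ^ m')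
          = a m * (starRingEnd ℂ) (a m') * ((ζ ^ j) ^ m * ((ζ⁻¹) ^ j) ^ m') := by
        intro j _; ring
      rw [Finset.sum_congr rfl h1, ← Finset.mul_sum, geom_root M ζ hζ m m' (mem_range.mp hm) (mem_range.mp hm')]
      split_ifs <;> simp
    rw [Finset.sum_congr rfl this]
    rw [Finset.sum_ite_eq (range M) m]
    simp only [hm, if_true]
    ring
  exact_mod_cast key

theorem coeff_lit (N : ℕ) (e : ℕ → ℤ) (i : ℕ) :
    (∑ k ∈ range N, C (e k) * X ^ k : ℤ[X]).coeff i = if i < N then e i else 0 := by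
  simp only [finsetSum_coeff, coeff_C_mul, coeff_X_pow, mul_ite, mul_one, mul_zero]
  rw [Finset.sum_ite_eq (range N) i]
  simp

theorem natDegree_lit (N : ℕ) (e : ℕ → ℤ) :
    (∑ k ∈ range N, C (e k) * X ^ k : ℤ[X]).natDegree ≤ N - 1 := by
  apply natDegree_sum_le_of_forall_le
  intro k hk
  have := mem_range.mp hk
  exact (natDegree_C_mul_X_pow_le (e k) k).trans (by omega)

theorem map_lit (N : ℕ) (e : ℕ → ℤ) (he : ∀ k, e k = 1 ∨ e k = -1) :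
    (∑ k ∈ range N, C (e k) * X ^ k : ℤ[X]).map (Int.castRingHom (ZMod 2))
      = ∑ k ∈ range N, (X : (ZMod 2)[X]) ^ k := by
  rw [Polynomial.map_sum]
  apply Finset.sum_congr rfl
  intro k _
  rcases he k with h | h <;> rw [h] <;> simp [CharTwo.neg_eq]

theorem coeff_prod_even (N : ℕ) (e e' : ℕ → ℤ) (he : ∀ k, e k = 1 ∨ e k = -1)
    (he' : ∀ k, e' k = 1 ∨ e' k = -1) (k : ℕ) (hk : k < N) :
    Odd (((∑ k ∈ range N, C (e k) * X ^ k : ℤ[X]) * (∑ k ∈ range N, C (e' k) * X ^ k)).coeff (2 * k)) := by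
  rw [← ZMod.intCast_eq_one_iff_odd]
  have h := Polynomial.coeff_map (p := (∑ k ∈ range N, C (e k) * X ^ k : ℤ[X]) * (∑ k ∈ range N, C (e' k) * X ^ k))
    (Int.castRingHom (ZMod 2)) (2 * k)
  rw [Polynomial.map_mul, map_lit N e he, map_lit N e' he', ← sq] at h
  have : Fact (Nat.Prime 2) := ⟨Nat.prime_two⟩
  rw [sum_pow_char 2] at h
  change (Int.castRingHom (ZMod 2)) _ = 1
  rw [← h]
  simp only [finsetSum_coeff, ← pow_mul, coeff_X_pow]
  rw [Finset.sum_eq_single k]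
  · simp [mul_comm]
  · intro b _ hb
    rw [if_neg]
    omega
  · intro hk'
    exact absurd (mem_range.mpr hk) hk'

theorem coeff_prod_mid (N : ℕ) (hN : 0 < N) (e : ℕ → ℤ) (he : ∀ k, e k = 1 ∨ e k = -1) :
    ((∑ k ∈ range N, C (e k) * X ^ k : ℤ[X]) *
      (∑ k ∈ range N, C (e (N - 1 - k)) * X ^ k)).coeff (N - 1) = N := by
  rw [coeff_mul, Finset.Nat.sum_antidiagonal_eq_sum_range_succ
    (fun i j => (∑ k ∈ range N, C (e k) * X ^ k : ℤ[X]).coeff i *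
      (∑ k ∈ range N, C (e (N - 1 - k)) * X ^ k : ℤ[X]).coeff j)]
  have hN' : (N - 1).succ = N := by omega
  rw [hN']
  have : ∀ k ∈ range N, (∑ k ∈ range N, C (e k) * X ^ k : ℤ[X]).coeff k *
      (∑ k ∈ range N, C (e (N - 1 - k)) * X ^ k : ℤ[X]).coeff (N - 1 - k) = 1 := by
    intro k hk
    have hk' := mem_range.mp hk
    rw [coeff_lit, coeff_lit N (fun k => e (N - 1 - k))]
    rw [if_pos hk', if_pos (by omega)]
    have : N - 1 - (N - 1 - k) = k := by omega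
    simp only [this]
    rcases he k with h | h <;> rw [h] <;> norm_num
  rw [Finset.sum_congr rfl this]
  simp

theorem parseval_int (M : ℕ) (ζ : ℂ) (hζ : IsPrimitiveRoot ζ M) (G : ℤ[X]) (hG : G.natDegree < M) :
    ∑ j ∈ range M, ‖aeval (ζ ^ j) G‖ ^ 2 = M * ∑ m ∈ range M, ((G.coeff m : ℤ) : ℝ) ^ 2 := by
  have h := parseval_roots M ζ hζ (fun m => (G.coeff m : ℂ))
  have h1 : ∀ j, aeval (ζ ^ j) G = ∑ m ∈ range M, (G.coeff m : ℂ) * (ζ ^ j) ^ m := by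
    intro j
    rw [aeval_eq_sum_range' hG]
    apply Finset.sum_congr rfl
    intro m _
    rw [zsmul_eq_mul]
  simp_rw [h1]
  rw [h]
  congr 1
  apply Finset.sum_congr rfl
  intro m _
  rw [Complex.norm_intCast, sq_abs]

theorem norm_rev (N : ℕ) (e : ℕ → ℤ) (z : ℂ) (hz : ‖z‖ = 1) :
    ‖∑ k ∈ range N, ((e (N - 1 - k) : ℤ) : ℂ) * z ^ k‖ = ‖∑ k ∈ range N, ((e k : ℤ) : ℂ) * z ^ k‖ := by
  have hz0 : z ≠ 0 := by intro h; rw [h] at hz; simp at hz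
  have hconj : (starRingEnd ℂ) z = z⁻¹ := (Complex.inv_eq_conj hz).symm
  have : ∑ k ∈ range N, ((e (N - 1 - k) : ℤ) : ℂ) * z ^ k
      = z ^ (N - 1) * (starRingEnd ℂ) (∑ k ∈ range N, ((e k : ℤ) : ℂ) * z ^ k) := by
    rw [map_sum, Finset.mul_sum, ← Finset.sum_range_reflect]
    apply Finset.sum_congr rfl
    intro k hk
    have hk' := mem_range.mp hk
    rw [map_mul, map_pow, hconj, map_intCast]
    have h1 : N - 1 - (N - 1 - k) = k := by omega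
    rw [h1]
    have h2 : z ^ (N - 1) = z ^ (N - 1 - k) * z ^ k := by rw [← pow_add]; congr 1; omega
    rw [h2]
    have h3 : z ^ k * z⁻¹ ^ k = 1 := by rw [← mul_pow, mul_inv_cancel₀ hz0, one_pow]
    linear_combination (-(((e k : ℤ) : ℂ) * z ^ (N - 1 - k))) * h3
  rw [this, norm_mul, norm_pow, hz, one_pow, one_mul, RCLike.norm_conj]

theorem odd_sq_ge (n : ℤ) (h : Odd n) : (1 : ℝ) ≤ ((n : ℤ) : ℝ) ^ 2 := by
  have h0 : n ≠ 0 := by
    rintro rfl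
    exact absurd h (by decide)
  have h1 : 0 < n ^ 2 := by positivity
  have h2 : 1 ≤ n ^ 2 := h1
  exact_mod_cast h2

theorem sum_even_ind (N : ℕ) :
    ∑ m ∈ range (2 * N), (if m % 2 = 0 then (1 : ℝ) else 0) = N := by
  induction N with
  | zero => simp
  | succ n ih =>
    have : 2 * (n + 1) = 2 * n + 1 + 1 := by ring
    rw [this, Finset.sum_range_succ, Finset.sum_range_succ, ih]
    have h1 : (2 * n) % 2 = 0 := by omega
    have h2 : ¬ ((2 * n + 1) % 2 = 0) := by omega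
    rw [if_pos h1, if_neg h2]
    push_cast; ring

theorem main_int (N : ℕ) (e : ℕ → ℤ) (he : ∀ k, e k = 1 ∨ e k = -1) :
    ∃ z w : ℂ, ‖z‖ = 1 ∧ ‖w‖ = 1 ∧
      ‖∑ k ∈ range N, ((e k : ℤ) : ℂ) * w ^ k‖ ^ 2 ≤ N ∧
      (N : ℝ) ≤ ‖∑ k ∈ range N, ((e k : ℤ) : ℂ) * z ^ k‖ ^ 2 ∧
      (2 * ((N / 2 : ℕ) : ℝ)) ≤ (N - ‖∑ k ∈ range N, ((e k : ℤ) : ℂ) * w ^ k‖ ^ 2) *
        (‖∑ k ∈ range N, ((e k : ℤ) : ℂ) * z ^ k‖ ^ 2 - N) := by
  rcases Nat.eq_zero_or_pos N with h0 | hN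
  · subst h0; exact ⟨1, 1, by simp, by simp, by simp, by simp, by simp⟩
  obtain ⟨M, hMdef⟩ : ∃ M, M = 2 * N := ⟨_, rfl⟩
  have hM : M ≠ 0 := by omega
  obtain ⟨ζ, hζ⟩ : ∃ ζ : ℂ, IsPrimitiveRoot ζ M := ⟨_, Complex.isPrimitiveRoot_exp M hM⟩
  obtain ⟨p, hp⟩ : ∃ p : ℤ[X], p = ∑ k ∈ range N, C (e k) * X ^ k := ⟨_, rfl⟩
  obtain ⟨q, hq⟩ : ∃ q : ℤ[X], q = ∑ k ∈ range N, C (e (N - 1 - k)) * X ^ k := ⟨_, rfl⟩
  obtain ⟨f, hf⟩ : ∃ f : ℕ → ℝ, f = fun j => ‖∑ k ∈ range N, ((e k : ℤ) : ℂ) * (ζ ^ j) ^ k‖ ^ 2 :=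
    ⟨_, rfl⟩
  have hnorm : ∀ j : ℕ, ‖ζ ^ j‖ = 1 := by
    intro j; rw [norm_pow, hζ.norm'_eq_one hM, one_pow]
  have hp_eval : ∀ z : ℂ, aeval z p = ∑ k ∈ range N, ((e k : ℤ) : ℂ) * z ^ k := by
    intro z; simp [hp, map_sum]
  have hq_eval : ∀ z : ℂ, aeval z q = ∑ k ∈ range N, ((e (N - 1 - k) : ℤ) : ℂ) * z ^ k := by
    intro z; simp [hq, map_sum]
  have hpdeg' : p.natDegree ≤ N - 1 := by rw [hp]; exact natDegree_lit N e
  have hqdeg' : q.natDegree ≤ N - 1 := by rw [hq]; exact natDegree_lit N (fun k => e (N - 1 - k))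
  have hpdeg : p.natDegree < M := by omega
  have hpqdeg : (p * q).natDegree < M := by
    have := natDegree_mul_le (p := p) (q := q)
    omega
  have hsum1 : ∑ j ∈ range M, f j = M * N := by
    have h := parseval_int M ζ hζ p hpdeg
    simp_rw [hp_eval] at h
    rw [hf, h]
    congr 1
    have hc : ∀ m ∈ range M, ((p.coeff m : ℤ) : ℝ) ^ 2 = if m < N then 1 else 0 := by
      intro m _
      rw [hp, coeff_lit]
      split_ifs with hm
      · rcases he m with h | h <;> rw [h] <;> norm_num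
      · norm_num
    rw [Finset.sum_congr rfl hc, hMdef]
    have hsub : range N ⊆ range (2 * N) := by
      intro x hx; rw [mem_range] at hx ⊢; omega
    rw [← Finset.sum_subset hsub]
    · rw [Finset.sum_congr rfl (fun x hx => if_pos (mem_range.mp hx))]; simp
    · intro x _ hx
      rw [if_neg]
      intro h; exact hx (mem_range.mpr h)
  have hsum2 : M * ((N : ℝ) ^ 2 + 2 * ((N / 2 : ℕ) : ℝ)) ≤ ∑ j ∈ range M, (f j) ^ 2 := by
    have h := parseval_int M ζ hζ (p * q) hpqdeg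
    have h1 : ∀ j, ‖aeval (ζ ^ j) (p * q)‖ ^ 2 = (f j) ^ 2 := by
      intro j
      rw [map_mul, norm_mul, hp_eval, hq_eval, norm_rev N e (ζ ^ j) (hnorm j), hf]
      ring
    simp_rw [h1] at h
    rw [h]
    apply mul_le_mul_of_nonneg_left _ (by positivity)
    have hmem : N - 1 ∈ range M := by rw [mem_range]; omega
    rw [← Finset.sum_erase_add _ _ hmem]
    have hmid : (((p * q).coeff (N - 1) : ℤ) : ℝ) ^ 2 = (N : ℝ) ^ 2 := by
      rw [hp, hq, coeff_prod_mid N hN e he]; push_cast; ring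
    rw [hmid]
    have hlow : ∀ m ∈ (range M).erase (N - 1), (if m % 2 = 0 then (1 : ℝ) else 0)
        ≤ (((p * q).coeff m : ℤ) : ℝ) ^ 2 := by
      intro m hm
      have hm' := mem_range.mp (Finset.mem_of_mem_erase hm)
      split_ifs with hpar
      · have hk : m = 2 * (m / 2) := by omega
        rw [hk, hp, hq]
        apply odd_sq_ge
        apply coeff_prod_even N e (fun k => e (N - 1 - k)) he (fun k => he _)
        omega
      · positivity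
    have h2 := Finset.sum_le_sum hlow
    have h3 : ∑ m ∈ (range M).erase (N - 1), (if m % 2 = 0 then (1 : ℝ) else 0)
        = N - (if (N - 1) % 2 = 0 then (1 : ℝ) else 0) := by
      rw [Finset.sum_erase_eq_sub hmem, hMdef, sum_even_ind]
    rw [h3] at h2
    have h4 : (2 * ((N / 2 : ℕ) : ℝ)) = N - (if (N - 1) % 2 = 0 then (1 : ℝ) else 0) := by
      split_ifs with hpar
      · have : N = 2 * (N / 2) + 1 := by omega
        have h5 : (N : ℝ) = 2 * ((N / 2 : ℕ) : ℝ) + 1 := by exact_mod_cast this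
        linarith
      · have : N = 2 * (N / 2) := by omega
        have h5 : (N : ℝ) = 2 * ((N / 2 : ℕ) : ℝ) := by exact_mod_cast this
        linarith
    linarith
  have hne : (range M).Nonempty := ⟨0, mem_range.mpr (by omega)⟩
  obtain ⟨jmax, hjmax, hmax⟩ := Finset.exists_max_image (range M) f hne
  obtain ⟨jmin, hjmin, hmin⟩ := Finset.exists_min_image (range M) f hne
  have hMpos : (0 : ℝ) < M := by exact_mod_cast Nat.pos_of_ne_zero hM
  have hle_min : f jmin ≤ N := by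
    have : ∑ j ∈ range M, f jmin ≤ ∑ j ∈ range M, f j := Finset.sum_le_sum hmin
    rw [hsum1] at this
    simp only [Finset.sum_const, card_range, nsmul_eq_mul] at this
    exact le_of_mul_le_mul_left this hMpos
  have hge_max : (N : ℝ) ≤ f jmax := by
    have : ∑ j ∈ range M, f j ≤ ∑ j ∈ range M, f jmax := Finset.sum_le_sum hmax
    rw [hsum1] at this
    simp only [Finset.sum_const, card_range, nsmul_eq_mul] at this
    exact le_of_mul_le_mul_left this hMpos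
  have hprod : 0 ≤ ∑ j ∈ range M, (f j - f jmin) * (f jmax - f j) := by
    apply Finset.sum_nonneg
    intro j hj
    exact mul_nonneg (sub_nonneg.mpr (hmin j hj)) (sub_nonneg.mpr (hmax j hj))
  have hexp : ∑ j ∈ range M, (f j - f jmin) * (f jmax - f j)
      = (f jmin + f jmax) * ∑ j ∈ range M, f j - ∑ j ∈ range M, (f j) ^ 2 - M * (f jmin * f jmax) := by
    have : ∀ j ∈ range M, (f j - f jmin) * (f jmax - f j)
        = (f jmin + f jmax) * f j - (f j) ^ 2 - f jmin * f jmax := by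
      intro j _; ring
    rw [Finset.sum_congr rfl this, Finset.sum_sub_distrib, Finset.sum_sub_distrib, ← Finset.mul_sum]
    simp
  rw [hexp, hsum1] at hprod
  have hfin : (M : ℝ) * (2 * ((N / 2 : ℕ) : ℝ)) ≤ M * ((N - f jmin) * (f jmax - N)) := by
    nlinarith
  have hfin' := le_of_mul_le_mul_left hfin hMpos
  refine ⟨ζ ^ jmax, ζ ^ jmin, hnorm jmax, hnorm jmin, ?_, ?_, ?_⟩
  · have := hle_min; rw [hf] at this; exact this
  · have := hge_max; rw [hf] at this; exact this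
  · have := hfin'; rw [hf] at this; exact this

theorem main_real (N : ℕ) (ε : ℕ → ℝ) (hε : ∀ k < N, ε k = 1 ∨ ε k = -1) :
    ∃ z w : ℂ, ‖z‖ = 1 ∧ ‖w‖ = 1 ∧
      ‖∑ k ∈ range N, (ε k : ℂ) * w ^ k‖ ^ 2 ≤ N ∧
      (N : ℝ) ≤ ‖∑ k ∈ range N, (ε k : ℂ) * z ^ k‖ ^ 2 ∧
      2 * ((N / 2 : ℕ) : ℝ) ≤ (N - ‖∑ k ∈ range N, (ε k : ℂ) * w ^ k‖ ^ 2) *
        (‖∑ k ∈ range N, (ε k : ℂ) * z ^ k‖ ^ 2 - N) := by
  classical
  obtain ⟨e, he_def⟩ : ∃ e : ℕ → ℤ, e = fun k => if ε k = 1 then 1 else -1 := ⟨_, rfl⟩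
  have he : ∀ k, e k = 1 ∨ e k = -1 := by
    intro k; rw [he_def]; simp only; split_ifs <;> simp
  have hcast : ∀ z : ℂ, ∑ k ∈ range N, ((e k : ℤ) : ℂ) * z ^ k
      = ∑ k ∈ range N, (ε k : ℂ) * z ^ k := by
    intro z
    apply Finset.sum_congr rfl
    intro k hk
    have hk' := mem_range.mp hk
    rcases hε k hk' with h | h
    · simp [he_def, h]
    · have hne : ¬ ((-1 : ℝ) = 1) := by norm_num
      simp [he_def, h, hne]
  obtain ⟨z, w, hz, hw, h1, h2, h3⟩ := main_int N e he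
  refine ⟨z, w, hz, hw, ?_, ?_, ?_⟩
  · rw [← hcast]; exact h1
  · rw [← hcast]; exact h2
  · rw [← hcast, ← hcast]; exact h3

theorem flat_rate (N : ℕ) (ε : ℕ → ℝ) (hε : ∀ k < N, ε k = 1 ∨ ε k = -1) (c : ℝ) (hc : 0 ≤ c)
    (hflat : ∀ z : ℂ, ‖z‖ = 1 →
      (1 - c) * Real.sqrt N ≤ ‖∑ k ∈ range N, (ε k : ℂ) * z ^ k‖ ∧
      ‖∑ k ∈ range N, (ε k : ℂ) * z ^ k‖ ≤ (1 + c) * Real.sqrt N) :
    (N : ℝ) - 1 ≤ 4 * c ^ 2 * (N : ℝ) ^ 2 := by
  obtain ⟨z, w, hz, hw, h1, h2, h3⟩ := main_real N ε hε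
  have hN0 : (0 : ℝ) ≤ N := Nat.cast_nonneg N
  have hs : Real.sqrt N ^ 2 = N := Real.sq_sqrt hN0
  have hs0 : 0 ≤ Real.sqrt N := Real.sqrt_nonneg _
  have hfloor : (N : ℝ) - 1 ≤ 2 * ((N / 2 : ℕ) : ℝ) := by
    have : N ≤ 2 * (N / 2) + 1 := by omega
    have h5 : (N : ℝ) ≤ 2 * ((N / 2 : ℕ) : ℝ) + 1 := by exact_mod_cast this
    linarith
  rcases le_or_gt c 1 with hc1 | hc1
  · obtain ⟨hwl, _⟩ := hflat w hw
    obtain ⟨_, hzu⟩ := hflat z hz
    have hwn : 0 ≤ ‖∑ k ∈ range N, (ε k : ℂ) * w ^ k‖ := norm_nonneg _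
    have hzn : 0 ≤ ‖∑ k ∈ range N, (ε k : ℂ) * z ^ k‖ := norm_nonneg _
    have ha : (N : ℝ) - ‖∑ k ∈ range N, (ε k : ℂ) * w ^ k‖ ^ 2 ≤ N * (2 * c - c ^ 2) := by
      have h0 : 0 ≤ (1 - c) * Real.sqrt N := mul_nonneg (by linarith) hs0
      have : ((1 - c) * Real.sqrt N) ^ 2 ≤ ‖∑ k ∈ range N, (ε k : ℂ) * w ^ k‖ ^ 2 :=
        pow_le_pow_left₀ h0 hwl 2
      rw [mul_pow, hs] at this
      nlinarith
    have hb : ‖∑ k ∈ range N, (ε k : ℂ) * z ^ k‖ ^ 2 - N ≤ N * (2 * c + c ^ 2) := by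
      have : ‖∑ k ∈ range N, (ε k : ℂ) * z ^ k‖ ^ 2 ≤ ((1 + c) * Real.sqrt N) ^ 2 :=
        pow_le_pow_left₀ hzn hzu 2
      rw [mul_pow, hs] at this
      nlinarith
    have ha0 : 0 ≤ (N : ℝ) - ‖∑ k ∈ range N, (ε k : ℂ) * w ^ k‖ ^ 2 := by linarith
    have hb0 : 0 ≤ ‖∑ k ∈ range N, (ε k : ℂ) * z ^ k‖ ^ 2 - N := by linarith
    have hprod : ((N : ℝ) - ‖∑ k ∈ range N, (ε k : ℂ) * w ^ k‖ ^ 2) *
        (‖∑ k ∈ range N, (ε k : ℂ) * z ^ k‖ ^ 2 - N) ≤ (N * (2 * c - c ^ 2)) * (N * (2 * c + c ^ 2)) := by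
      apply mul_le_mul ha hb hb0
      nlinarith
    have : (N * (2 * c - c ^ 2)) * (N * (2 * c + c ^ 2)) ≤ 4 * c ^ 2 * (N : ℝ) ^ 2 := by
      have : 0 ≤ (N : ℝ) ^ 2 * c ^ 4 := by positivity
      nlinarith
    linarith
  · have h1' : (1 : ℝ) ≤ c ^ 2 := by nlinarith
    rcases Nat.eq_zero_or_pos N with h0 | hpos
    · subst h0; simp
    · have hN1 : (1 : ℝ) ≤ N := by exact_mod_cast hpos
      nlinarith

end Vale.Agent.Lib.P110
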