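import Mathlib
import Vale.Agent.Lib.P110.Parity

namespace Vale.Agent.Lib.P110

open Finset Polynomial

theorem kron_per (f : ℕ → ℝ) (K : ℕ) (hf : ∀ s, f (s + K) = f s) (n x : ℕ) :
    f (n * K + x) = f x := by
  induction n with
  | zero => simp
  | succ n ih =>
    have h : (n + 1) * K + x = (n * K + x) + K := by ring
    rw [h, hf, ih]

theorem kron_sum_periodic (f : ℕ → ℝ) (K : ℕ) (hf : ∀ s, f (s + K) = f s) (n : ℕ) :
    ∑ s ∈ range (n * K), f s = n * ∑ s ∈ range K, f s := by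
  induction n with
  | zero => simp
  | succ n ih =>
    have h : (n + 1) * K = n * K + K := by ring
    rw [h, Finset.sum_range_add, ih]
    have h2 : ∑ x ∈ range K, f (n * K + x) = ∑ x ∈ range K, f x :=
      Finset.sum_congr rfl (fun x _ => kron_per f K hf n x)
    rw [h2]; push_cast; ring

theorem kron_ext {E : Type*} [AddCommMonoid E] (k K : ℕ) (hkK : k ≤ K) (φ : ℕ → E) :
    ∑ j ∈ range K, (if j < k then φ j else 0) = ∑ j ∈ range k, φ j := by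
  rw [← Finset.sum_filter]
  apply Finset.sum_congr _ (fun _ _ => rfl)
  ext j
  simp only [mem_filter, mem_range]
  omega

theorem kron_reindex (m k : ℕ) (F : ℕ → ℂ) :
    ∑ n ∈ range (m * k), F n = ∑ i ∈ range m, ∑ j ∈ range k, F (i + m * j) := by
  induction k with
  | zero => simp
  | succ k ih =>
    have h : m * (k + 1) = m * k + m := by ring
    rw [h, Finset.sum_range_add, ih]
    simp_rw [Finset.sum_range_succ]
    rw [Finset.sum_add_distrib]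
    congr 1
    apply Finset.sum_congr rfl
    intro i _
    rw [add_comm]

theorem kron_sum_B (K k : ℕ) (hkK : k ≤ K) (ξ : ℂ) (hξ : IsPrimitiveRoot ξ K) (b : ℕ → ℂ) :
    ∑ s ∈ range K, ‖∑ j ∈ range k, b j * (ξ ^ s) ^ j‖ ^ 2 = K * ∑ j ∈ range k, ‖b j‖ ^ 2 := by
  have h : (∑ s ∈ range K, ‖∑ j ∈ range K, (if j < k then b j else 0) * (ξ ^ s) ^ j‖ ^ 2)
      = K * ∑ j ∈ range K, ‖(if j < k then b j else 0)‖ ^ 2 :=
    parseval_roots K ξ hξ (fun j => if j < k then b j else 0)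
  have h1 : ∀ x : ℂ, ∑ j ∈ range K, (if j < k then b j else 0) * x ^ j
      = ∑ j ∈ range k, b j * x ^ j := by
    intro x
    rw [← kron_ext k K hkK (fun j => b j * x ^ j)]
    apply Finset.sum_congr rfl
    intro j _
    split_ifs <;> simp
  have h2 : ∑ j ∈ range K, ‖(if j < k then b j else 0)‖ ^ 2 = ∑ j ∈ range k, ‖b j‖ ^ 2 := by
    rw [← kron_ext k K hkK (fun j => ‖b j‖ ^ 2)]
    apply Finset.sum_congr rfl
    intro j _
    split_ifs <;> simp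
  simp_rw [h1] at h
  rw [h2] at h
  exact h

theorem kron_sum_A (m : ℕ) (hm : 2 ≤ m) (K : ℕ) (hK : 2 * m ≤ K) (ξ : ℂ)
    (hξ : IsPrimitiveRoot ξ K) (e : ℕ → ℤ) (he : ∀ i, e i = 1 ∨ e i = -1) :
    ∑ s ∈ range K, ‖∑ i ∈ range m, ((e i : ℤ) : ℂ) * (ξ ^ s) ^ i‖ ^ 2 = K * m ∧
    (K : ℝ) * ((m : ℝ) ^ 2 + 2)
      ≤ ∑ s ∈ range K, (‖∑ i ∈ range m, ((e i : ℤ) : ℂ) * (ξ ^ s) ^ i‖ ^ 2) ^ 2 := by
  have hK0 : K ≠ 0 := by omega
  obtain ⟨p, hp⟩ : ∃ p : ℤ[X], p = ∑ i ∈ range m, C (e i) * X ^ i := ⟨_, rfl⟩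
  obtain ⟨q, hq⟩ : ∃ q : ℤ[X], q = ∑ i ∈ range m, C (e (m - 1 - i)) * X ^ i := ⟨_, rfl⟩
  have hnorm : ∀ s : ℕ, ‖ξ ^ s‖ = 1 := by
    intro s; rw [norm_pow, hξ.norm'_eq_one hK0, one_pow]
  have hp_eval : ∀ z : ℂ, aeval z p = ∑ i ∈ range m, ((e i : ℤ) : ℂ) * z ^ i := by
    intro z; simp [hp, map_sum]
  have hq_eval : ∀ z : ℂ, aeval z q = ∑ i ∈ range m, ((e (m - 1 - i) : ℤ) : ℂ) * z ^ i := by
    intro z; simp [hq, map_sum]
  have hpdeg' : p.natDegree ≤ m - 1 := by rw [hp]; exact natDegree_lit m e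
  have hqdeg' : q.natDegree ≤ m - 1 := by
    rw [hq]; exact natDegree_lit m (fun i => e (m - 1 - i))
  have hpdeg : p.natDegree < K := by omega
  have hpqdeg : (p * q).natDegree < K := by
    have := natDegree_mul_le (p := p) (q := q)
    omega
  constructor
  · have h := parseval_int K ξ hξ p hpdeg
    simp_rw [hp_eval] at h
    rw [h]
    congr 1
    have hc : ∀ n ∈ range K, ((p.coeff n : ℤ) : ℝ) ^ 2 = if n < m then 1 else 0 := by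
      intro n _
      rw [hp, coeff_lit]
      split_ifs with hn
      · rcases he n with h | h <;> rw [h] <;> norm_num
      · norm_num
    rw [Finset.sum_congr rfl hc, kron_ext m K (by omega) (fun _ => (1 : ℝ))]
    simp
  · have h := parseval_int K ξ hξ (p * q) hpqdeg
    have h1 : ∀ s, ‖aeval (ξ ^ s) (p * q)‖ ^ 2
        = (‖∑ i ∈ range m, ((e i : ℤ) : ℂ) * (ξ ^ s) ^ i‖ ^ 2) ^ 2 := by
      intro s
      rw [map_mul, norm_mul, hp_eval, hq_eval, norm_rev m e (ξ ^ s) (hnorm s)]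
      ring
    simp_rw [h1] at h
    rw [h]
    apply mul_le_mul_of_nonneg_left _ (by positivity)
    have hsub : ({0, m - 1, 2 * (m - 1)} : Finset ℕ) ⊆ range K := by
      intro x hx
      simp only [mem_insert, mem_singleton] at hx
      rw [mem_range]; omega
    have h3 : ∑ n ∈ ({0, m - 1, 2 * (m - 1)} : Finset ℕ), (((p * q).coeff n : ℤ) : ℝ) ^ 2
        ≤ ∑ n ∈ range K, (((p * q).coeff n : ℤ) : ℝ) ^ 2 :=
      Finset.sum_le_sum_of_subset_of_nonneg hsub (fun _ _ _ => sq_nonneg _)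
    have hn1 : (0 : ℕ) ∉ ({m - 1, 2 * (m - 1)} : Finset ℕ) := by
      simp only [mem_insert, mem_singleton]; omega
    have hn2 : (m - 1) ∉ ({2 * (m - 1)} : Finset ℕ) := by
      simp only [mem_singleton]; omega
    rw [Finset.sum_insert hn1, Finset.sum_insert hn2, Finset.sum_singleton] at h3
    have hmid : (((p * q).coeff (m - 1) : ℤ) : ℝ) ^ 2 = (m : ℝ) ^ 2 := by
      rw [hp, hq, coeff_prod_mid m (by omega) e he]; push_cast; ring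
    have h0 : (1 : ℝ) ≤ (((p * q).coeff 0 : ℤ) : ℝ) ^ 2 := by
      have h00 := coeff_prod_even m e (fun i => e (m - 1 - i)) he (fun i => he _) 0 (by omega)
      rw [Nat.mul_zero] at h00
      rw [hp, hq]
      exact odd_sq_ge _ h00
    have htop : (1 : ℝ) ≤ (((p * q).coeff (2 * (m - 1)) : ℤ) : ℝ) ^ 2 := by
      rw [hp, hq]
      exact odd_sq_ge _
        (coeff_prod_even m e (fun i => e (m - 1 - i)) he (fun i => he _) (m - 1) (by omega))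
    linarith

theorem kron_core (M : ℕ) (hM : 0 < M) (μ m B2 : ℝ) (g h : ℕ → ℝ)
    (hgm : ∀ s ∈ range M, g s ≤ m ^ 2)
    (hh : ∀ s ∈ range M, 0 ≤ h s)
    (hμ0 : 0 ≤ μ) (hμ : ∀ s ∈ range M, μ ≤ g s * h s)
    (hS1 : ∑ s ∈ range M, g s = M * m)
    (hS2 : (M : ℝ) * (m ^ 2 + 2) ≤ ∑ s ∈ range M, (g s) ^ 2)
    (hSh : ∑ s ∈ range M, h s = M * B2) :
    μ * (m ^ 3 + 2) ≤ m ^ 4 * B2 := by
  have hpt : ∀ s ∈ range M,
      μ * ((g s) ^ 2 - (m ^ 2 + 2 * m) * g s + (2 * m ^ 3 + m ^ 2)) ≤ m ^ 4 * h s := by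
    intro s hs
    have hgm' := hgm s hs
    have hh' := hh s hs
    have hμ' := hμ s hs
    have e1 : m ^ 4 * h s
        = g s * h s * ((g s) ^ 2 - (m ^ 2 + 2 * m) * g s + (2 * m ^ 3 + m ^ 2))
          + h s * ((m ^ 2 - g s) * (g s - m) ^ 2) := by ring
    have e2 : 0 ≤ h s * ((m ^ 2 - g s) * (g s - m) ^ 2) :=
      mul_nonneg hh' (mul_nonneg (sub_nonneg.mpr hgm') (sq_nonneg _))
    rcases le_total 0 ((g s) ^ 2 - (m ^ 2 + 2 * m) * g s + (2 * m ^ 3 + m ^ 2)) with hQ | hQ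
    · have h1 := mul_le_mul_of_nonneg_right hμ' hQ
      linarith
    · have h1 : μ * ((g s) ^ 2 - (m ^ 2 + 2 * m) * g s + (2 * m ^ 3 + m ^ 2)) ≤ 0 :=
        mul_nonpos_iff.mpr (Or.inl ⟨hμ0, hQ⟩)
      have h2 : 0 ≤ m ^ 4 * h s := mul_nonneg (by positivity) hh'
      linarith
  have hsum := Finset.sum_le_sum hpt
  rw [← Finset.mul_sum, ← Finset.mul_sum] at hsum
  have hexp : ∑ s ∈ range M, ((g s) ^ 2 - (m ^ 2 + 2 * m) * g s + (2 * m ^ 3 + m ^ 2))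
      = ∑ s ∈ range M, (g s) ^ 2 - (m ^ 2 + 2 * m) * ∑ s ∈ range M, g s
        + M * (2 * m ^ 3 + m ^ 2) := by
    rw [Finset.sum_add_distrib, Finset.sum_sub_distrib, ← Finset.mul_sum]
    simp
    ring
  rw [hexp, hS1, hSh] at hsum
  have hMpos : (0 : ℝ) < M := by exact_mod_cast hM
  have h5 : μ * ((M : ℝ) * (m ^ 3 + 2))
      ≤ μ * (∑ s ∈ range M, (g s) ^ 2 - (m ^ 2 + 2 * m) * (M * m) + M * (2 * m ^ 3 + m ^ 2)) := by
    apply mul_le_mul_of_nonneg_left _ hμ0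
    nlinarith
  have h6 : μ * ((M : ℝ) * (m ^ 3 + 2)) ≤ m ^ 4 * (M * B2) := le_trans h5 hsum
  have h7 : (M : ℝ) * (μ * (m ^ 3 + 2)) ≤ M * (m ^ 4 * B2) := by linarith
  exact le_of_mul_le_mul_left h7 hMpos

theorem kron_main_int (m k : ℕ) (hm : 2 ≤ m) (hk : 0 < k) (e : ℕ → ℤ)
    (he : ∀ i, e i = 1 ∨ e i = -1) (b : ℕ → ℂ) :
    ∃ z : ℂ, ‖z‖ = 1 ∧
      ‖(∑ i ∈ range m, ((e i : ℤ) : ℂ) * z ^ i) * (∑ j ∈ range k, b j * (z ^ m) ^ j)‖ ^ 2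
        * ((m : ℝ) ^ 3 + 2) ≤ (m : ℝ) ^ 4 * ∑ j ∈ range k, ‖b j‖ ^ 2 := by
  obtain ⟨M, hMdef⟩ : ∃ M, M = m * (2 * k) := ⟨_, rfl⟩
  have hM : M ≠ 0 := by
    rw [hMdef]; positivity
  have hM2 : 2 * m ≤ M := by
    rw [hMdef]; nlinarith
  obtain ⟨ζ, hζ⟩ : ∃ ζ : ℂ, IsPrimitiveRoot ζ M := ⟨_, Complex.isPrimitiveRoot_exp M hM⟩
  have hξ : IsPrimitiveRoot (ζ ^ m) (2 * k) :=
    IsPrimitiveRoot.pow (Nat.pos_of_ne_zero hM) hζ hMdef
  have hnorm : ∀ s : ℕ, ‖ζ ^ s‖ = 1 := by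
    intro s; rw [norm_pow, hζ.norm'_eq_one hM, one_pow]
  obtain ⟨g, hg⟩ : ∃ g : ℕ → ℝ,
      g = fun s => ‖∑ i ∈ range m, ((e i : ℤ) : ℂ) * (ζ ^ s) ^ i‖ ^ 2 := ⟨_, rfl⟩
  obtain ⟨h, hh⟩ : ∃ h : ℕ → ℝ,
      h = fun s => ‖∑ j ∈ range k, b j * ((ζ ^ m) ^ s) ^ j‖ ^ 2 := ⟨_, rfl⟩
  obtain ⟨hA1, hA2⟩ := kron_sum_A m hm M hM2 ζ hζ e he
  have hB := kron_sum_B (2 * k) k (by omega) (ζ ^ m) hξ b
  have hper : ∀ s, h (s + 2 * k) = h s := by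
    intro s
    rw [hh]
    simp only
    rw [pow_add, hξ.pow_eq_one, mul_one]
  have hSh : ∑ s ∈ range M, h s = M * ∑ j ∈ range k, ‖b j‖ ^ 2 := by
    rw [hMdef, kron_sum_periodic h (2 * k) hper m]
    rw [hh]
    simp only
    rw [hB]; push_cast; ring
  have hgm : ∀ s, g s ≤ (m : ℝ) ^ 2 := by
    intro s
    rw [hg]
    simp only
    have hle : ‖∑ i ∈ range m, ((e i : ℤ) : ℂ) * (ζ ^ s) ^ i‖ ≤ m := by
      calc ‖∑ i ∈ range m, ((e i : ℤ) : ℂ) * (ζ ^ s) ^ i‖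
          ≤ ∑ i ∈ range m, ‖((e i : ℤ) : ℂ) * (ζ ^ s) ^ i‖ := norm_sum_le _ _
        _ = ∑ i ∈ range m, (1 : ℝ) := by
            apply Finset.sum_congr rfl
            intro i _
            rw [norm_mul, norm_pow, hnorm s, one_pow, mul_one]
            rcases he i with h | h <;> rw [h] <;> simp
        _ = m := by simp
    exact pow_le_pow_left₀ (norm_nonneg _) hle 2
  have hne : (range M).Nonempty := ⟨0, mem_range.mpr (Nat.pos_of_ne_zero hM)⟩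
  obtain ⟨j0, hj0, hmin⟩ := Finset.exists_min_image (range M) (fun s => g s * h s) hne
  have hg0 : ∀ s, 0 ≤ g s := by
    intro s; rw [hg]; positivity
  have hh0 : ∀ s, 0 ≤ h s := by
    intro s; rw [hh]; positivity
  have key := kron_core M (Nat.pos_of_ne_zero hM) (g j0 * h j0) (m : ℝ)
    (∑ j ∈ range k, ‖b j‖ ^ 2) g h
    (fun s _ => hgm s) (fun s _ => hh0 s) (mul_nonneg (hg0 j0) (hh0 j0)) hmin
    (by rw [hg]; exact hA1) (by rw [hg]; exact hA2) hSh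
  refine ⟨ζ ^ j0, hnorm j0, ?_⟩
  have hval : ‖(∑ i ∈ range m, ((e i : ℤ) : ℂ) * (ζ ^ j0) ^ i)
      * (∑ j ∈ range k, b j * ((ζ ^ j0) ^ m) ^ j)‖ ^ 2 = g j0 * h j0 := by
    rw [norm_mul, mul_pow, hg, hh]
    simp only
    rw [← pow_mul ζ j0 m, ← pow_mul ζ m j0, mul_comm j0 m]
  rw [hval]; exact key

theorem kron_main_int2 (m k : ℕ) (hm : 2 ≤ m) (hk : 0 < k) (e : ℕ → ℤ)
    (he : ∀ i, e i = 1 ∨ e i = -1) (b : ℕ → ℂ) :
    ∃ z : ℂ, ‖z‖ = 1 ∧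
      ‖(∑ i ∈ range m, ((e i : ℤ) : ℂ) * (z ^ k) ^ i) * (∑ j ∈ range k, b j * z ^ j)‖ ^ 2
        * ((m : ℝ) ^ 3 + 2) ≤ (m : ℝ) ^ 4 * ∑ j ∈ range k, ‖b j‖ ^ 2 := by
  obtain ⟨M, hMdef⟩ : ∃ M, M = k * (2 * m) := ⟨_, rfl⟩
  have hM : M ≠ 0 := by
    rw [hMdef]; positivity
  have hkM : k ≤ M := by
    rw [hMdef]; nlinarith
  obtain ⟨ζ, hζ⟩ : ∃ ζ : ℂ, IsPrimitiveRoot ζ M := ⟨_, Complex.isPrimitiveRoot_exp M hM⟩
  have hξ : IsPrimitiveRoot (ζ ^ k) (2 * m) :=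
    IsPrimitiveRoot.pow (Nat.pos_of_ne_zero hM) hζ hMdef
  have hnorm : ∀ s : ℕ, ‖ζ ^ s‖ = 1 := by
    intro s; rw [norm_pow, hζ.norm'_eq_one hM, one_pow]
  have hnormξ : ∀ s : ℕ, ‖(ζ ^ k) ^ s‖ = 1 := by
    intro s; rw [norm_pow, hnorm k, one_pow]
  obtain ⟨g, hg⟩ : ∃ g : ℕ → ℝ,
      g = fun s => ‖∑ i ∈ range m, ((e i : ℤ) : ℂ) * ((ζ ^ k) ^ s) ^ i‖ ^ 2 := ⟨_, rfl⟩
  obtain ⟨h, hh⟩ : ∃ h : ℕ → ℝ,
      h = fun s => ‖∑ j ∈ range k, b j * (ζ ^ s) ^ j‖ ^ 2 := ⟨_, rfl⟩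
  obtain ⟨hA1, hA2⟩ := kron_sum_A m hm (2 * m) le_rfl (ζ ^ k) hξ e he
  have hA1' : ∑ s ∈ range (2 * m), g s = ((2 * m : ℕ) : ℝ) * m := by
    rw [hg]; exact hA1
  have hA2' : ((2 * m : ℕ) : ℝ) * ((m : ℝ) ^ 2 + 2) ≤ ∑ s ∈ range (2 * m), (g s) ^ 2 := by
    rw [hg]; exact hA2
  have hSh : ∑ s ∈ range M, h s = M * ∑ j ∈ range k, ‖b j‖ ^ 2 := by
    rw [hh]; exact kron_sum_B M k hkM ζ hζ b
  have hper : ∀ s, g (s + 2 * m) = g s := by
    intro s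
    rw [hg]
    simp only
    rw [pow_add, hξ.pow_eq_one, mul_one]
  have hper2 : ∀ s, (g (s + 2 * m)) ^ 2 = (g s) ^ 2 := by
    intro s; rw [hper]
  have hS1 : ∑ s ∈ range M, g s = M * m := by
    rw [hMdef, kron_sum_periodic g (2 * m) hper k, hA1']
    push_cast; ring
  have hS2 : (M : ℝ) * ((m : ℝ) ^ 2 + 2) ≤ ∑ s ∈ range M, (g s) ^ 2 := by
    rw [hMdef, kron_sum_periodic (fun s => (g s) ^ 2) (2 * m) hper2 k]
    have h1 := mul_le_mul_of_nonneg_left hA2' (Nat.cast_nonneg k : (0 : ℝ) ≤ k)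
    push_cast at h1 ⊢
    linarith
  have hgm : ∀ s, g s ≤ (m : ℝ) ^ 2 := by
    intro s
    rw [hg]
    simp only
    have hle : ‖∑ i ∈ range m, ((e i : ℤ) : ℂ) * ((ζ ^ k) ^ s) ^ i‖ ≤ m := by
      calc ‖∑ i ∈ range m, ((e i : ℤ) : ℂ) * ((ζ ^ k) ^ s) ^ i‖
          ≤ ∑ i ∈ range m, ‖((e i : ℤ) : ℂ) * ((ζ ^ k) ^ s) ^ i‖ := norm_sum_le _ _
        _ = ∑ i ∈ range m, (1 : ℝ) := by
            apply Finset.sum_congr rfl
            intro i _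
            rw [norm_mul, norm_pow, hnormξ s, one_pow, mul_one]
            rcases he i with h | h <;> rw [h] <;> simp
        _ = m := by simp
    exact pow_le_pow_left₀ (norm_nonneg _) hle 2
  have hne : (range M).Nonempty := ⟨0, mem_range.mpr (Nat.pos_of_ne_zero hM)⟩
  obtain ⟨j0, hj0, hmin⟩ := Finset.exists_min_image (range M) (fun s => g s * h s) hne
  have hg0 : ∀ s, 0 ≤ g s := by
    intro s; rw [hg]; positivity
  have hh0 : ∀ s, 0 ≤ h s := by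
    intro s; rw [hh]; positivity
  have key := kron_core M (Nat.pos_of_ne_zero hM) (g j0 * h j0) (m : ℝ)
    (∑ j ∈ range k, ‖b j‖ ^ 2) g h
    (fun s _ => hgm s) (fun s _ => hh0 s) (mul_nonneg (hg0 j0) (hh0 j0)) hmin
    hS1 hS2 hSh
  refine ⟨ζ ^ j0, hnorm j0, ?_⟩
  have hval : ‖(∑ i ∈ range m, ((e i : ℤ) : ℂ) * ((ζ ^ j0) ^ k) ^ i)
      * (∑ j ∈ range k, b j * (ζ ^ j0) ^ j)‖ ^ 2 = g j0 * h j0 := by
    rw [norm_mul, mul_pow, hg, hh]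
    simp only
    rw [← pow_mul ζ j0 k, ← pow_mul ζ k j0, mul_comm j0 k]
  rw [hval]; exact key

theorem kron_main (m k : ℕ) (hm : 2 ≤ m) (a b ε : ℕ → ℝ)
    (ha : ∀ i < m, a i = 1 ∨ a i = -1) (hb : ∀ j < k, b j = 1 ∨ b j = -1)
    (hε : (∀ i < m, ∀ j < k, ε (i + m * j) = a i * b j) ∨
      (∀ i < m, ∀ j < k, ε (j + k * i) = a i * b j)) :
    ∃ z : ℂ, ‖z‖ = 1 ∧
      ‖∑ n ∈ range (m * k), (ε n : ℂ) * z ^ n‖ ^ 2 * ((m : ℝ) ^ 3 + 2)
        ≤ ((m * k : ℕ) : ℝ) * (m : ℝ) ^ 3 := by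
  classical
  rcases Nat.eq_zero_or_pos k with hk0 | hk
  · subst hk0
    exact ⟨1, by simp, by simp⟩
  obtain ⟨e, he_def⟩ : ∃ e : ℕ → ℤ, e = fun i => if a i = 1 then 1 else -1 := ⟨_, rfl⟩
  have he : ∀ i, e i = 1 ∨ e i = -1 := by
    intro i; rw [he_def]; simp only; split_ifs <;> simp
  have hea : ∀ i < m, ((e i : ℤ) : ℂ) = ((a i : ℝ) : ℂ) := by
    intro i hi
    rcases ha i hi with h | h
    · simp [he_def, h]
    · have hne : ¬ ((-1 : ℝ) = 1) := by norm_num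
      simp [he_def, h, hne]
  have hb2 : ∑ j ∈ range k, ‖((b j : ℝ) : ℂ)‖ ^ 2 = k := by
    have h1 : ∀ j ∈ range k, ‖((b j : ℝ) : ℂ)‖ ^ 2 = 1 := by
      intro j hj
      rcases hb j (mem_range.mp hj) with h | h <;> rw [h] <;> simp
    rw [Finset.sum_congr rfl h1]; simp
  rcases hε with hε | hε
  · obtain ⟨z, hz, hmain⟩ := kron_main_int m k hm hk e he (fun j => ((b j : ℝ) : ℂ))
    refine ⟨z, hz, ?_⟩
    have hfac : ∑ n ∈ range (m * k), (ε n : ℂ) * z ^ n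
        = (∑ i ∈ range m, ((e i : ℤ) : ℂ) * z ^ i)
          * (∑ j ∈ range k, ((b j : ℝ) : ℂ) * (z ^ m) ^ j) := by
      rw [kron_reindex m k (fun n => (ε n : ℂ) * z ^ n), Finset.sum_mul_sum]
      apply Finset.sum_congr rfl
      intro i hi
      apply Finset.sum_congr rfl
      intro j hj
      rw [hε i (mem_range.mp hi) j (mem_range.mp hj), hea i (mem_range.mp hi), pow_add,
        ← pow_mul]
      push_cast; ring
    rw [hfac]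
    rw [hb2] at hmain
    calc _ ≤ (m : ℝ) ^ 4 * k := hmain
      _ = ((m * k : ℕ) : ℝ) * (m : ℝ) ^ 3 := by push_cast; ring
  · obtain ⟨z, hz, hmain⟩ := kron_main_int2 m k hm hk e he (fun j => ((b j : ℝ) : ℂ))
    refine ⟨z, hz, ?_⟩
    have hfac : ∑ n ∈ range (m * k), (ε n : ℂ) * z ^ n
        = (∑ i ∈ range m, ((e i : ℤ) : ℂ) * (z ^ k) ^ i)
          * (∑ j ∈ range k, ((b j : ℝ) : ℂ) * z ^ j) := by
      rw [mul_comm m k, kron_reindex k m (fun n => (ε n : ℂ) * z ^ n), Finset.sum_mul_sum,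
        Finset.sum_comm]
      apply Finset.sum_congr rfl
      intro i hi
      apply Finset.sum_congr rfl
      intro j hj
      rw [hε i (mem_range.mp hi) j (mem_range.mp hj), hea i (mem_range.mp hi), pow_add,
        ← pow_mul]
      push_cast; ring
    rw [hfac]
    rw [hb2] at hmain
    calc _ ≤ (m : ℝ) ^ 4 * k := hmain
      _ = ((m * k : ℕ) : ℝ) * (m : ℝ) ^ 3 := by push_cast; ring

end Vale.Agent.Lib.P110
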