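import Mathlib
import Vale.Agent.Lib.P110.Kronecker

namespace Vale.Agent.Lib.P110

open Finset Polynomial

theorem kronr_reindex (m k : ℕ) (F : ℕ → ℝ) :
    ∑ n ∈ range (m * k), F n = ∑ i ∈ range m, ∑ j ∈ range k, F (i + m * j) := by
  induction k with
  | zero => simp
  | succ k ih =>
    have h : m * (k + 1) = m * k + m := by ring
    rw [h, Finset.sum_range_add, ih]
    simp_rw [Finset.sum_range_succ]
    rw [Finset.sum_add_distrib]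
    congr 1
    apply Finset.sum_congr rfl
    intro i _
    rw [add_comm]

theorem kronmax_core (M : ℕ) (hM : 0 < M) (μ m k : ℝ) (hm0 : 0 ≤ m) (g h : ℕ → ℝ)
    (hg0 : ∀ s ∈ range M, 0 ≤ g s) (hgm : ∀ s ∈ range M, g s ≤ m ^ 2)
    (hh : ∀ s ∈ range M, 0 ≤ h s)
    (hμ0 : 0 ≤ μ) (hμ : ∀ s ∈ range M, g s * h s ≤ μ)
    (hS1 : ∑ s ∈ range M, g s = M * m)
    (hS2 : (M : ℝ) * (m ^ 2 + 2) ≤ ∑ s ∈ range M, (g s) ^ 2)
    (hSh : ∑ s ∈ range M, h s = M * k)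
    (hSgh : ∑ s ∈ range M, g s * h s = M * (m * k)) :
    (m * k) * (m ^ 3 + m ^ 2) ≤ μ * (m ^ 3 + m ^ 2 - 2) := by
  have hpt : ∀ s ∈ range M,
      (2 * m ^ 3 + m ^ 2) * (g s * h s) - m ^ 4 * h s
        ≤ μ * ((m ^ 2 + 2 * m) * g s - (g s) ^ 2) := by
    intro s hs
    have hg := hg0 s hs
    have hgm' := hgm s hs
    have hh' := hh s hs
    have hμ' := hμ s hs
    have e1 : g s * h s * ((m ^ 2 + 2 * m) * g s - (g s) ^ 2)
        - ((2 * m ^ 3 + m ^ 2) * (g s * h s) - m ^ 4 * h s)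
        = h s * ((g s - m) ^ 2 * (m ^ 2 - g s)) := by ring
    have e2 : 0 ≤ h s * ((g s - m) ^ 2 * (m ^ 2 - g s)) :=
      mul_nonneg hh' (mul_nonneg (sq_nonneg _) (sub_nonneg.mpr hgm'))
    have hR : 0 ≤ (m ^ 2 + 2 * m) * g s - (g s) ^ 2 := by
      have h0 : (m ^ 2 + 2 * m) * g s - (g s) ^ 2 = g s * (m ^ 2 - g s) + 2 * m * g s := by ring
      rw [h0]
      have h1 : 0 ≤ g s * (m ^ 2 - g s) := mul_nonneg hg (sub_nonneg.mpr hgm')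
      have h2 : 0 ≤ 2 * m * g s := by positivity
      linarith
    have e3 := mul_le_mul_of_nonneg_right hμ' hR
    linarith
  have hsum := Finset.sum_le_sum hpt
  have hL : ∑ s ∈ range M, ((2 * m ^ 3 + m ^ 2) * (g s * h s) - m ^ 4 * h s)
      = (2 * m ^ 3 + m ^ 2) * (M * (m * k)) - m ^ 4 * (M * k) := by
    rw [Finset.sum_sub_distrib, ← Finset.mul_sum, ← Finset.mul_sum, hSgh, hSh]
  have hR' : ∑ s ∈ range M, μ * ((m ^ 2 + 2 * m) * g s - (g s) ^ 2)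
      = μ * ((m ^ 2 + 2 * m) * (M * m) - ∑ s ∈ range M, (g s) ^ 2) := by
    rw [← Finset.mul_sum, Finset.sum_sub_distrib, ← Finset.mul_sum, hS1]
  rw [hL, hR'] at hsum
  have hMpos : (0 : ℝ) < M := by exact_mod_cast hM
  have h5 : μ * ((m ^ 2 + 2 * m) * (M * m) - ∑ s ∈ range M, (g s) ^ 2)
      ≤ μ * ((M : ℝ) * (m ^ 3 + m ^ 2 - 2)) := by
    apply mul_le_mul_of_nonneg_left _ hμ0
    nlinarith
  have h7 : (M : ℝ) * ((m * k) * (m ^ 3 + m ^ 2)) ≤ M * (μ * (m ^ 3 + m ^ 2 - 2)) := by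
    nlinarith
  exact le_of_mul_le_mul_left h7 hMpos

theorem kronmax_int1 (m k : ℕ) (hm : 2 ≤ m) (hk : 0 < k) (e : ℕ → ℤ)
    (he : ∀ i, e i = 1 ∨ e i = -1) (b c : ℕ → ℂ)
    (hfac : ∀ z : ℂ, ∑ n ∈ range (m * k), c n * z ^ n
      = (∑ i ∈ range m, ((e i : ℤ) : ℂ) * z ^ i) * (∑ j ∈ range k, b j * (z ^ m) ^ j))
    (hb2 : ∑ j ∈ range k, ‖b j‖ ^ 2 = k)
    (hc2 : ∑ n ∈ range (m * k), ‖c n‖ ^ 2 = ((m * k : ℕ) : ℝ)) :
    ∃ z : ℂ, ‖z‖ = 1 ∧ ((m * k : ℕ) : ℝ) * ((m : ℝ) ^ 3 + (m : ℝ) ^ 2)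
      ≤ ‖∑ n ∈ range (m * k), c n * z ^ n‖ ^ 2 * ((m : ℝ) ^ 3 + (m : ℝ) ^ 2 - 2) := by
  obtain ⟨M, hMdef⟩ : ∃ M, M = m * (2 * k) := ⟨_, rfl⟩
  have hM : M ≠ 0 := by
    rw [hMdef]; positivity
  have hM2 : 2 * m ≤ M := by
    rw [hMdef]; nlinarith
  have hNM : m * k ≤ M := by
    rw [hMdef]; nlinarith
  obtain ⟨ζ, hζ⟩ : ∃ ζ : ℂ, IsPrimitiveRoot ζ M := ⟨_, Complex.isPrimitiveRoot_exp M hM⟩
  have hξ : IsPrimitiveRoot (ζ ^ m) (2 * k) :=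
    IsPrimitiveRoot.pow (Nat.pos_of_ne_zero hM) hζ hMdef
  have hnorm : ∀ s : ℕ, ‖ζ ^ s‖ = 1 := by
    intro s; rw [norm_pow, hζ.norm'_eq_one hM, one_pow]
  obtain ⟨g, hg⟩ : ∃ g : ℕ → ℝ,
      g = fun s => ‖∑ i ∈ range m, ((e i : ℤ) : ℂ) * (ζ ^ s) ^ i‖ ^ 2 := ⟨_, rfl⟩
  obtain ⟨h, hh⟩ : ∃ h : ℕ → ℝ,
      h = fun s => ‖∑ j ∈ range k, b j * ((ζ ^ m) ^ s) ^ j‖ ^ 2 := ⟨_, rfl⟩
  obtain ⟨hA1, hA2⟩ := kron_sum_A m hm M hM2 ζ hζ e he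
  have hB := kron_sum_B (2 * k) k (by omega) (ζ ^ m) hξ b
  have hper : ∀ s, h (s + 2 * k) = h s := by
    intro s
    rw [hh]
    simp only
    rw [pow_add, hξ.pow_eq_one, mul_one]
  have hSh : ∑ s ∈ range M, h s = M * (k : ℝ) := by
    rw [hMdef, kron_sum_periodic h (2 * k) hper m]
    rw [hh]
    simp only
    rw [hB, hb2]; push_cast; ring
  have hgm : ∀ s, g s ≤ (m : ℝ) ^ 2 := by
    intro s
    rw [hg]
    simp only
    have hle : ‖∑ i ∈ range m, ((e i : ℤ) : ℂ) * (ζ ^ s) ^ i‖ ≤ m := by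
      calc ‖∑ i ∈ range m, ((e i : ℤ) : ℂ) * (ζ ^ s) ^ i‖
          ≤ ∑ i ∈ range m, ‖((e i : ℤ) : ℂ) * (ζ ^ s) ^ i‖ := norm_sum_le _ _
        _ = ∑ i ∈ range m, (1 : ℝ) := by
            apply Finset.sum_congr rfl
            intro i _
            rw [norm_mul, norm_pow, hnorm s, one_pow, mul_one]
            rcases he i with h | h <;> rw [h] <;> simp
        _ = m := by simp
    exact pow_le_pow_left₀ (norm_nonneg _) hle 2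
  have hgh : ∀ s, g s * h s = ‖∑ n ∈ range (m * k), c n * (ζ ^ s) ^ n‖ ^ 2 := by
    intro s
    rw [hfac (ζ ^ s), norm_mul, mul_pow, hg, hh]
    simp only
    rw [← pow_mul ζ s m, ← pow_mul ζ m s, mul_comm s m]
  have hSgh : ∑ s ∈ range M, g s * h s = M * ((m : ℝ) * k) := by
    rw [Finset.sum_congr rfl (fun s _ => hgh s), kron_sum_B M (m * k) hNM ζ hζ c, hc2]
    push_cast; ring
  have hne : (range M).Nonempty := ⟨0, mem_range.mpr (Nat.pos_of_ne_zero hM)⟩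
  obtain ⟨j1, hj1, hmax⟩ := Finset.exists_max_image (range M) (fun s => g s * h s) hne
  have hg0 : ∀ s, 0 ≤ g s := by
    intro s; rw [hg]; positivity
  have hh0 : ∀ s, 0 ≤ h s := by
    intro s; rw [hh]; positivity
  have key := kronmax_core M (Nat.pos_of_ne_zero hM) (g j1 * h j1) (m : ℝ) (k : ℝ)
    (by positivity) g h
    (fun s _ => hg0 s) (fun s _ => hgm s) (fun s _ => hh0 s) (mul_nonneg (hg0 j1) (hh0 j1)) hmax
    (by rw [hg]; exact hA1) (by rw [hg]; exact hA2) hSh hSgh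
  refine ⟨ζ ^ j1, hnorm j1, ?_⟩
  rw [← hgh j1]
  have hcast : ((m * k : ℕ) : ℝ) = (m : ℝ) * k := by push_cast; ring
  rw [hcast]; exact key

theorem kronmax_int2 (m k : ℕ) (hm : 2 ≤ m) (hk : 0 < k) (e : ℕ → ℤ)
    (he : ∀ i, e i = 1 ∨ e i = -1) (b c : ℕ → ℂ)
    (hfac : ∀ z : ℂ, ∑ n ∈ range (m * k), c n * z ^ n
      = (∑ i ∈ range m, ((e i : ℤ) : ℂ) * (z ^ k) ^ i) * (∑ j ∈ range k, b j * z ^ j))
    (hb2 : ∑ j ∈ range k, ‖b j‖ ^ 2 = k)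
    (hc2 : ∑ n ∈ range (m * k), ‖c n‖ ^ 2 = ((m * k : ℕ) : ℝ)) :
    ∃ z : ℂ, ‖z‖ = 1 ∧ ((m * k : ℕ) : ℝ) * ((m : ℝ) ^ 3 + (m : ℝ) ^ 2)
      ≤ ‖∑ n ∈ range (m * k), c n * z ^ n‖ ^ 2 * ((m : ℝ) ^ 3 + (m : ℝ) ^ 2 - 2) := by
  obtain ⟨M, hMdef⟩ : ∃ M, M = k * (2 * m) := ⟨_, rfl⟩
  have hM : M ≠ 0 := by
    rw [hMdef]; positivity
  have hkM : k ≤ M := by
    rw [hMdef]; nlinarith
  have hNM : m * k ≤ M := by
    rw [hMdef]; nlinarith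
  obtain ⟨ζ, hζ⟩ : ∃ ζ : ℂ, IsPrimitiveRoot ζ M := ⟨_, Complex.isPrimitiveRoot_exp M hM⟩
  have hξ : IsPrimitiveRoot (ζ ^ k) (2 * m) :=
    IsPrimitiveRoot.pow (Nat.pos_of_ne_zero hM) hζ hMdef
  have hnorm : ∀ s : ℕ, ‖ζ ^ s‖ = 1 := by
    intro s; rw [norm_pow, hζ.norm'_eq_one hM, one_pow]
  have hnormξ : ∀ s : ℕ, ‖(ζ ^ k) ^ s‖ = 1 := by
    intro s; rw [norm_pow, hnorm k, one_pow]
  obtain ⟨g, hg⟩ : ∃ g : ℕ → ℝ,
      g = fun s => ‖∑ i ∈ range m, ((e i : ℤ) : ℂ) * ((ζ ^ k) ^ s) ^ i‖ ^ 2 := ⟨_, rfl⟩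
  obtain ⟨h, hh⟩ : ∃ h : ℕ → ℝ,
      h = fun s => ‖∑ j ∈ range k, b j * (ζ ^ s) ^ j‖ ^ 2 := ⟨_, rfl⟩
  obtain ⟨hA1, hA2⟩ := kron_sum_A m hm (2 * m) le_rfl (ζ ^ k) hξ e he
  have hA1' : ∑ s ∈ range (2 * m), g s = ((2 * m : ℕ) : ℝ) * m := by
    rw [hg]; exact hA1
  have hA2' : ((2 * m : ℕ) : ℝ) * ((m : ℝ) ^ 2 + 2) ≤ ∑ s ∈ range (2 * m), (g s) ^ 2 := by
    rw [hg]; exact hA2
  have hSh : ∑ s ∈ range M, h s = M * (k : ℝ) := by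
    rw [hh, ← hb2]; exact kron_sum_B M k hkM ζ hζ b
  have hper : ∀ s, g (s + 2 * m) = g s := by
    intro s
    rw [hg]
    simp only
    rw [pow_add, hξ.pow_eq_one, mul_one]
  have hper2 : ∀ s, (g (s + 2 * m)) ^ 2 = (g s) ^ 2 := by
    intro s; rw [hper]
  have hS1 : ∑ s ∈ range M, g s = M * m := by
    rw [hMdef, kron_sum_periodic g (2 * m) hper k, hA1']
    push_cast; ring
  have hS2 : (M : ℝ) * ((m : ℝ) ^ 2 + 2) ≤ ∑ s ∈ range M, (g s) ^ 2 := by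
    rw [hMdef, kron_sum_periodic (fun s => (g s) ^ 2) (2 * m) hper2 k]
    have h1 := mul_le_mul_of_nonneg_left hA2' (Nat.cast_nonneg k : (0 : ℝ) ≤ k)
    push_cast at h1 ⊢
    linarith
  have hgm : ∀ s, g s ≤ (m : ℝ) ^ 2 := by
    intro s
    rw [hg]
    simp only
    have hle : ‖∑ i ∈ range m, ((e i : ℤ) : ℂ) * ((ζ ^ k) ^ s) ^ i‖ ≤ m := by
      calc ‖∑ i ∈ range m, ((e i : ℤ) : ℂ) * ((ζ ^ k) ^ s) ^ i‖
          ≤ ∑ i ∈ range m, ‖((e i : ℤ) : ℂ) * ((ζ ^ k) ^ s) ^ i‖ := norm_sum_le _ _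
        _ = ∑ i ∈ range m, (1 : ℝ) := by
            apply Finset.sum_congr rfl
            intro i _
            rw [norm_mul, norm_pow, hnormξ s, one_pow, mul_one]
            rcases he i with h | h <;> rw [h] <;> simp
        _ = m := by simp
    exact pow_le_pow_left₀ (norm_nonneg _) hle 2
  have hgh : ∀ s, g s * h s = ‖∑ n ∈ range (m * k), c n * (ζ ^ s) ^ n‖ ^ 2 := by
    intro s
    rw [hfac (ζ ^ s), norm_mul, mul_pow, hg, hh]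
    simp only
    rw [← pow_mul ζ s k, ← pow_mul ζ k s, mul_comm s k]
  have hSgh : ∑ s ∈ range M, g s * h s = M * ((m : ℝ) * k) := by
    rw [Finset.sum_congr rfl (fun s _ => hgh s), kron_sum_B M (m * k) hNM ζ hζ c, hc2]
    push_cast; ring
  have hne : (range M).Nonempty := ⟨0, mem_range.mpr (Nat.pos_of_ne_zero hM)⟩
  obtain ⟨j1, hj1, hmax⟩ := Finset.exists_max_image (range M) (fun s => g s * h s) hne
  have hg0 : ∀ s, 0 ≤ g s := by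
    intro s; rw [hg]; positivity
  have hh0 : ∀ s, 0 ≤ h s := by
    intro s; rw [hh]; positivity
  have key := kronmax_core M (Nat.pos_of_ne_zero hM) (g j1 * h j1) (m : ℝ) (k : ℝ)
    (by positivity) g h
    (fun s _ => hg0 s) (fun s _ => hgm s) (fun s _ => hh0 s) (mul_nonneg (hg0 j1) (hh0 j1)) hmax
    hS1 hS2 hSh hSgh
  refine ⟨ζ ^ j1, hnorm j1, ?_⟩
  rw [← hgh j1]
  have hcast : ((m * k : ℕ) : ℝ) = (m : ℝ) * k := by push_cast; ring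
  rw [hcast]; exact key

theorem kron_both (m k : ℕ) (hm : 2 ≤ m) (a b ε : ℕ → ℝ)
    (ha : ∀ i < m, a i = 1 ∨ a i = -1) (hb : ∀ j < k, b j = 1 ∨ b j = -1)
    (hε : (∀ i < m, ∀ j < k, ε (i + m * j) = a i * b j) ∨
      (∀ i < m, ∀ j < k, ε (j + k * i) = a i * b j)) :
    ∃ z w : ℂ, ‖z‖ = 1 ∧ ‖w‖ = 1 ∧
      ‖∑ n ∈ range (m * k), (ε n : ℂ) * z ^ n‖ ^ 2 * ((m : ℝ) ^ 3 + 2)
        ≤ ((m * k : ℕ) : ℝ) * (m : ℝ) ^ 3 ∧
      ((m * k : ℕ) : ℝ) * ((m : ℝ) ^ 3 + (m : ℝ) ^ 2)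
        ≤ ‖∑ n ∈ range (m * k), (ε n : ℂ) * w ^ n‖ ^ 2 * ((m : ℝ) ^ 3 + (m : ℝ) ^ 2 - 2) := by
  classical
  obtain ⟨z, hz, hmin⟩ := kron_main m k hm a b ε ha hb hε
  rcases Nat.eq_zero_or_pos k with hk0 | hk
  · subst hk0
    exact ⟨z, 1, hz, by simp, hmin, by simp⟩
  obtain ⟨e, he_def⟩ : ∃ e : ℕ → ℤ, e = fun i => if a i = 1 then 1 else -1 := ⟨_, rfl⟩
  have he : ∀ i, e i = 1 ∨ e i = -1 := by
    intro i; rw [he_def]; simp only; split_ifs <;> simp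
  have hea : ∀ i < m, ((e i : ℤ) : ℂ) = ((a i : ℝ) : ℂ) := by
    intro i hi
    rcases ha i hi with h | h
    · simp [he_def, h]
    · have hne : ¬ ((-1 : ℝ) = 1) := by norm_num
      simp [he_def, h, hne]
  have hb2 : ∑ j ∈ range k, ‖((b j : ℝ) : ℂ)‖ ^ 2 = k := by
    have h1 : ∀ j ∈ range k, ‖((b j : ℝ) : ℂ)‖ ^ 2 = 1 := by
      intro j hj
      rcases hb j (mem_range.mp hj) with h | h <;> rw [h] <;> simp
    rw [Finset.sum_congr rfl h1]; simp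
  rcases hε with hε | hε
  · have hfac : ∀ w : ℂ, ∑ n ∈ range (m * k), ((ε n : ℝ) : ℂ) * w ^ n
        = (∑ i ∈ range m, ((e i : ℤ) : ℂ) * w ^ i)
          * (∑ j ∈ range k, ((b j : ℝ) : ℂ) * (w ^ m) ^ j) := by
      intro w
      rw [kron_reindex m k (fun n => (ε n : ℂ) * w ^ n), Finset.sum_mul_sum]
      apply Finset.sum_congr rfl
      intro i hi
      apply Finset.sum_congr rfl
      intro j hj
      rw [hε i (mem_range.mp hi) j (mem_range.mp hj), hea i (mem_range.mp hi), pow_add,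
        ← pow_mul]
      push_cast; ring
    have hc2 : ∑ n ∈ range (m * k), ‖((ε n : ℝ) : ℂ)‖ ^ 2 = ((m * k : ℕ) : ℝ) := by
      rw [kronr_reindex m k (fun n => ‖((ε n : ℝ) : ℂ)‖ ^ 2)]
      have h2 : ∀ i ∈ range m, ∑ j ∈ range k, ‖((ε (i + m * j) : ℝ) : ℂ)‖ ^ 2 = k := by
        intro i hi
        have h1 : ∀ j ∈ range k, ‖((ε (i + m * j) : ℝ) : ℂ)‖ ^ 2 = 1 := by
          intro j hj
          rw [hε i (mem_range.mp hi) j (mem_range.mp hj)]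
          rcases ha i (mem_range.mp hi) with h | h <;>
            rcases hb j (mem_range.mp hj) with h' | h' <;> rw [h, h'] <;> simp
        rw [Finset.sum_congr rfl h1]; simp
      rw [Finset.sum_congr rfl h2]; simp
    obtain ⟨w, hw, hmaxw⟩ := kronmax_int1 m k hm hk e he (fun j => ((b j : ℝ) : ℂ))
      (fun n => ((ε n : ℝ) : ℂ)) hfac hb2 hc2
    exact ⟨z, w, hz, hw, hmin, hmaxw⟩
  · have hfac : ∀ w : ℂ, ∑ n ∈ range (m * k), ((ε n : ℝ) : ℂ) * w ^ n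
        = (∑ i ∈ range m, ((e i : ℤ) : ℂ) * (w ^ k) ^ i)
          * (∑ j ∈ range k, ((b j : ℝ) : ℂ) * w ^ j) := by
      intro w
      rw [mul_comm m k, kron_reindex k m (fun n => (ε n : ℂ) * w ^ n), Finset.sum_mul_sum,
        Finset.sum_comm]
      apply Finset.sum_congr rfl
      intro i hi
      apply Finset.sum_congr rfl
      intro j hj
      rw [hε i (mem_range.mp hi) j (mem_range.mp hj), hea i (mem_range.mp hi), pow_add,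
        ← pow_mul]
      push_cast; ring
    have hc2 : ∑ n ∈ range (m * k), ‖((ε n : ℝ) : ℂ)‖ ^ 2 = ((m * k : ℕ) : ℝ) := by
      rw [mul_comm m k, kronr_reindex k m (fun n => ‖((ε n : ℝ) : ℂ)‖ ^ 2)]
      have h2 : ∀ j ∈ range k, ∑ i ∈ range m, ‖((ε (j + k * i) : ℝ) : ℂ)‖ ^ 2 = m := by
        intro j hj
        have h1 : ∀ i ∈ range m, ‖((ε (j + k * i) : ℝ) : ℂ)‖ ^ 2 = 1 := by
          intro i hi
          rw [hε i (mem_range.mp hi) j (mem_range.mp hj)]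
          rcases ha i (mem_range.mp hi) with h | h <;>
            rcases hb j (mem_range.mp hj) with h' | h' <;> rw [h, h'] <;> simp
        rw [Finset.sum_congr rfl h1]; simp
      rw [Finset.sum_congr rfl h2]; simp
    obtain ⟨w, hw, hmaxw⟩ := kronmax_int2 m k hm hk e he (fun j => ((b j : ℝ) : ℂ))
      (fun n => ((ε n : ℝ) : ℂ)) hfac hb2 hc2
    exact ⟨z, w, hz, hw, hmin, hmaxw⟩

end Vale.Agent.Lib.P110
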